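import Vale.Agent.P338Z.M.Ops

/-!
P338, power saving: the core program from the programs of the acts, the control and the setup.
-/

namespace Vale.Agent.P338Z

namespace M

open Vale.Agent.Lib.PolyTime (PT PB Enc enc esize Word pb PBd)
open Vale.Agent.P338.R2.H898 Vale.Agent.P338.R2.H968 Vale.Agent.P338.R2.H784
open Vale.Agent.P338.R2.H968.CallEnv (mem0)
open Vale.Agent.P338.R3.H968
open Vale.Agent.P338.D.CM
open Vale.Agent.P338.R3.H313
open Vale.Agent.P338.R3.H772 (CoreSpec coreIn lval HasCore)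
open Vale.Agent.P338.R3.H898 (Act pay pt_pay repD wts SetupOK InF inF finite_FT finite_Ac)
open Function (update)

/-- The opcode of an act. -/
def opc (a : Act) : Fin 17 := if h : a.1 < 17 then ⟨a.1, h⟩ else 0

theorem pt_opc (o : Fin 17) : PT ∅ fun a : Act => decide (opc a = o) := by
  have h1 : PT ∅ fun a : Act => a.1 := PT.fst PT.id
  by_cases ho : o = 0
  · subst ho
    have h2 := ((h1.eqNat (PT.const 0)).or ((h1.lt (PT.const 17)).not))
    refine h2.congr fun a => ?_
    by_cases ha : a.1 < 17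
    · simp [opc, ha, Fin.ext_iff]
    · simp [opc, ha]
  · have h2 := h1.eqNat (PT.const (o : ℕ))
    refine h2.congr fun a => ?_
    by_cases ha : a.1 < 17
    · simp [opc, ha, Fin.ext_iff]
    · have h3 : a.1 ≠ (o : ℕ) := fun h => ha (h ▸ o.2)
      simp [opc, ha, h3, Ne.symm ho]

theorem trace_of_fx {wt : CPar → ℕ → ℕ} {P : CPar} (hP : P.Ok) {l : List Act} {D D' : DS}
    (h : Fx P l D D') :
    ∃ E, E.out = D'.out ∧ Trace (Mo wt) opc pay l (P, D) (wts wt P l) (P, E) := by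
  induction h with
  | nil h => exact ⟨_, h.out, .nil _⟩
  | @cons a l D D1 D2 D3 h0 h1 _ ih =>
    obtain ⟨E, hE, ih⟩ := ih
    have ha := fx1_lt h1
    have e : wts wt P (a :: l) = wt P a.1 + wts wt P l := by simp [wts]
    rw [e]
    refine ⟨E, hE, .cons ?_ ih⟩
    have e1 : ((opc a : Fin 17) : ℕ) = a.1 := by simp [opc, ha]
    refine ⟨hP, rfl, ⟨D1, h0, ?_⟩, ?_⟩
    · rw [e1]
      exact h1
    · rw [e1]

/-- **The core program.**  The exponent `c` depends only on the functions of the control. -/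
theorem hasCore_of {PP : Type} [Enc PP]
    {nT : PP → ℕ} {nU : PP × ℕ → ℕ} {ins : PP × ℕ × ℕ → List (ℕ × Act)}
    (hT : PT ∅ nT) (hU : PT ∅ nU) (hI : PT ∅ ins) :
    ∃ c : ℕ, ∀ {P0 : Type} [Enc P0] {A : MTM} {K : ℕ} {wt : CPar → ℕ → ℕ}
      (_ : Ops (dc A) bc (mem0 A) (repD (A := A)) (Mo wt) K)
      {V : Set P0} {cap : P0 → ℕ} {big : P0 → PP} {cp : P0 → CPar} (_ : ∀ p ∈ V, (cp p).Ok)
      {D0 : P0 → List Bool → List Bool → DS} {cS : P0 → ℕ}
      (_ : SetupOK (inF A) V cap big cp D0 cS)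
      (_ : ∀ p ∈ V, ∀ x y : List Bool, x.length = cap p → y.length = cap p →
        ∃ D' : DS, Fx (cp p) (Ctl.acts nT nU ins (big p)) (D0 p x y) D' ∧
          D'.out.length = 2 * cap p ∧ lval D'.out = lval x * lval y),
      HasCore V cap (fun p => cS p + (K * wts wt (cp p) (Ctl.acts nT nU ins (big p)) +
        (Ctl.iters nT nU ins (big p) + 1) * pb c (esize (big p))) + 1) := by
  obtain ⟨VC, c, hC⟩ := exists_core pt_opc pt_pay hT hU hI
  refine ⟨c, ?_⟩
  intro P0 _ A K wt hO V cap big cp hcp D0 cS hS hM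
  have hb : (bc true : Ac A) ≠ bc false := by
    intro h
    simp [bitL] at h
  obtain ⟨VS, hS⟩ := hS
  obtain ⟨su, hsu⟩ := hS (max VS VC) (le_max_left _ _)
  obtain ⟨co, hco⟩ := hC hb hO (max VS VC) (le_max_right _ _)
  have h1 := finite_FT A
  have h2 := finite_Ac A
  have h3 := finiteCallMem A
  refine ⟨CallMem A, CF (FT A) Bool (max VS VC), Ac A, inferInstance, h3, inferInstance, h2, dc A,
    .l, Sy.dl, mem0 A, .seq su (.seq co
      (Vale.Agent.P338.R2.H235.op1 (.dat (.inl .out)) .rew)), .dat (inF A).fx, .dat (inF A).fy,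
    .st, .dat (.inl .out), fun _ => rfl, by simp [inF], ?_⟩
  intro p hp x y hx hy
  obtain ⟨D1, h1, h2, h3⟩ := hM p hp x y hx hy
  have r1 := hsu p hp x y hx hy
  obtain ⟨D', h4, h5⟩ := trace_of_fx (wt := wt) (hcp p hp) h1
  rw [← h4] at h2 h3
  obtain ⟨r', r2⟩ := hco (big p) _ _ _ h5
  have r3 := Vale.Agent.P338.R2.H235.run_op1 (d := dc A) (.dat (.inl .out)) .rew (mem0 A)
    (allZ (max VS VC) bc (repD (A := A)) (cp p, D') r'
      (enc ((big p, nT (big p), 0, []) : Ctl.St PP Act)) [])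
  refine ⟨_, D'.out, (r1.seq (r2.seq r3)).mono (by beta_reduce; omega), ?_, h2, h3⟩
  show update (allZ (max VS VC) bc (repD (A := A)) (cp p, D') r'
      (enc ((big p, nT (big p), 0, []) : Ctl.St PP Act)) []) (.dat (.inl .out)) _
      (.dat (.inl .out)) = _
  rw [Function.update_self]
  simp [allZ, repD, ft, fc, Op.app]

end M

/-- **The core program.** -/
theorem core : CORE := by
  intro PP _ nT nU ins hT hU hI
  obtain ⟨c, hc⟩ := M.hasCore_of hT hU hI
  exact ⟨c, fun hA => ⟨1500, fun hcp _ _ hS _ hM => hc (M.ops hA) hcp hS hM⟩⟩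

end Vale.Agent.P338Z
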