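import Vale.Agent.P338.R3.H898.CoreHas
import Vale.Agent.P338.R3.H898.Arr
import Vale.Agent.P338.R3.H784.OpsAll

/-!
P338 power saving: the cell machine with one more act (bitwise addition), up to equality of the
bits of the cells.
-/

namespace Vale.Agent.P338Z

open Vale.Agent.Lib.PolyTime (PT Enc esize pb)
open Vale.Agent.P338.R2.H898 (Zip MTM Multiplies)
open Vale.Agent.P338.R3.H968 Vale.Agent.P338.R3.H898
open Vale.Agent.P338.R3.H313
open Vale.Agent.P338.R3.H772 (lval HasCore)

/-- Bitwise addition of two cells. -/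
def cXor (P : CPar) (x y : Cell) : Cell :=
  fun j => (((x j % 2 ^ P.b).toNat ^^^ (y j % 2 ^ P.b).toNat : ℕ) : ℤ)

/-- Two cells with the same bits. -/
def CEq (P : CPar) (x y : Cell) : Prop := ∀ j < P.nw, x j ≡ y j [ZMOD 2 ^ P.b]

/-- Two states with the same files. -/
structure DEq (P : CPar) (D D' : DS) : Prop where
  xl : List.Forall₂ (CEq P) D.X.l D'.X.l
  xr : List.Forall₂ (CEq P) D.X.r D'.X.r
  A : List.Forall₂ (CEq P) D.A D'.A
  B : List.Forall₂ (CEq P) D.B D'.B
  Y : D.Y = D'.Y
  ix : D.ix = D'.ix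
  iy : D.iy = D'.iy
  jx : D.jx = D'.jx
  jy : D.jy = D'.jy
  out : D.out = D'.out
  acc : D.acc = D'.acc
  cst : D.cst = D'.cst
  sh : D.sh = D'.sh

/-- Add the top of `B` bitwise (and pop) to the current cell, go right. -/
abbrev aXor : Act := Act.c 16

/-- One act. -/
inductive Fx1 (P : CPar) : Act → DS → DS → Prop
  | old {a : Act} {D D' : DS} : Ex1 P a D D' → Fx1 P a D D'
  | xorR (D : DS) (c y : Cell) (l r B : List Cell) : D.X = ⟨l, c :: r⟩ → D.B = y :: B →
      Fx1 P aXor D { D with X := ⟨cXor P c y :: l, r⟩, B := B }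

/-- Execution of a list of acts, up to equality of the files. -/
inductive Fx (P : CPar) : List Act → DS → DS → Prop
  | nil {D D' : DS} : DEq P D D' → Fx P [] D D'
  | cons {a : Act} {l : List Act} {D D₁ D₂ D₃ : DS} : DEq P D D₁ → Fx1 P a D₁ D₂ →
      Fx P l D₂ D₃ → Fx P (a :: l) D D₃

theorem CEq.refl (P : CPar) (x : Cell) : CEq P x x := fun _ _ => Int.ModEq.refl _

theorem CEq.symm {P : CPar} {x y : Cell} (h : CEq P x y) : CEq P y x := fun j hj => (h j hj).symm

theorem CEq.trans {P : CPar} {x y z : Cell} (h : CEq P x y) (h' : CEq P y z) : CEq P x z :=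
  fun j hj => (h j hj).trans (h' j hj)

theorem fa_refl (P : CPar) (l : List Cell) : List.Forall₂ (CEq P) l l := by
  induction l with
  | nil => exact .nil
  | cons a l ih => exact .cons (CEq.refl P a) ih

theorem fa_symm {P : CPar} {l l' : List Cell} (h : List.Forall₂ (CEq P) l l') :
    List.Forall₂ (CEq P) l' l := by
  induction h with
  | nil => exact .nil
  | cons h _ ih => exact .cons h.symm ih

theorem fa_trans {P : CPar} {l l' l'' : List Cell} (h : List.Forall₂ (CEq P) l l')
    (h' : List.Forall₂ (CEq P) l' l'') : List.Forall₂ (CEq P) l l'' := by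
  induction h generalizing l'' with
  | nil => exact h'
  | cons h _ ih =>
    cases h' with
    | cons h1 h2 => exact .cons (h.trans h1) (ih h2)

theorem DEq.refl (P : CPar) (D : DS) : DEq P D D :=
  ⟨fa_refl P _, fa_refl P _, fa_refl P _, fa_refl P _, rfl, rfl, rfl, rfl, rfl, rfl, rfl, rfl, rfl⟩

theorem DEq.symm {P : CPar} {D D' : DS} (h : DEq P D D') : DEq P D' D :=
  ⟨fa_symm h.xl, fa_symm h.xr, fa_symm h.A, fa_symm h.B, h.Y.symm, h.ix.symm, h.iy.symm,
    h.jx.symm, h.jy.symm, h.out.symm, h.acc.symm, h.cst.symm, h.sh.symm⟩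

theorem DEq.trans {P : CPar} {D D' D'' : DS} (h : DEq P D D') (h' : DEq P D' D'') :
    DEq P D D'' :=
  ⟨fa_trans h.xl h'.xl, fa_trans h.xr h'.xr, fa_trans h.A h'.A, fa_trans h.B h'.B,
    h.Y.trans h'.Y, h.ix.trans h'.ix, h.iy.trans h'.iy, h.jx.trans h'.jx, h.jy.trans h'.jy,
    h.out.trans h'.out, h.acc.trans h'.acc, h.cst.trans h'.cst, h.sh.trans h'.sh⟩

theorem Fx.refl (P : CPar) (D : DS) : Fx P [] D D := .nil (DEq.refl P D)

theorem Fx.left {P : CPar} {l : List Act} {D D' D'' : DS} (h : DEq P D D') (h' : Fx P l D' D'') :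
    Fx P l D D'' := by
  cases h' with
  | nil h1 => exact .nil (h.trans h1)
  | cons h1 h2 h3 => exact .cons (h.trans h1) h2 h3

theorem Fx.append {P : CPar} {l l' : List Act} {D D' D'' : DS} (h : Fx P l D D')
    (h' : Fx P l' D' D'') : Fx P (l ++ l') D D'' := by
  induction h with
  | nil h1 => exact h'.left h1
  | cons h1 h2 _ ih => exact .cons h1 h2 (ih h')

theorem Fx.right {P : CPar} {l : List Act} {D D' D'' : DS} (h : Fx P l D D') (h' : DEq P D' D'') :
    Fx P l D D'' := by
  have := h.append (Fx.nil h')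
  rwa [List.append_nil] at this

theorem Fx.one {P : CPar} {a : Act} {D D' : DS} (h : Fx1 P a D D') : Fx P [a] D D' :=
  .cons (DEq.refl P D) h (Fx.refl P D')

theorem Fx.of_ex {P : CPar} {l : List Act} {D D' : DS} (h : Ex P l D D') : Fx P l D D' := by
  induction h with
  | nil D => exact Fx.refl P D
  | cons h1 _ ih => exact .cons (DEq.refl P _) (.old h1) ih

/-- **The core program** for the acts with the bitwise addition; the weights of the opcodes are
those of the start tree (`ell + 1` for the opcode `16`). -/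
def CORE : Prop :=
  ∀ {PP : Type} [Enc PP] {nT : PP → ℕ} {nU : PP × ℕ → ℕ} {ins : PP × ℕ × ℕ → List (ℕ × Act)},
    PT ∅ nT → PT ∅ nU → PT ∅ ins →
    ∃ c : ℕ, ∀ {A : MTM}, Multiplies A → ∃ K : ℕ,
      ∀ {P0 : Type} [Enc P0] {V : Set P0} {cap : P0 → ℕ} {big : P0 → PP} {cp : P0 → CPar},
      (∀ p ∈ V, (cp p).Ok) → ∀ {D0 : P0 → List Bool → List Bool → DS} {cS : P0 → ℕ},
      SetupOK (inF A) V cap big cp D0 cS → (∀ p x y, Rest (D0 p x y)) →
      (∀ p ∈ V, ∀ x y : List Bool, x.length = cap p → y.length = cap p →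
        ∃ D' : DS, Fx (cp p) (Ctl.acts nT nU ins (big p)) (D0 p x y) D' ∧
          D'.out.length = 2 * cap p ∧ lval D'.out = lval x * lval y) →
      HasCore V cap (fun p => cS p +
        (K * wts (Vale.Agent.P338.R3.H784.wt A) (cp p) (Ctl.acts nT nU ins (big p)) +
        (Ctl.iters nT nU ins (big p) + 1) * pb c (esize (big p))) + 1)

end Vale.Agent.P338Z
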