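import Vale.Agent.P338Z.M.Defs

/-!
P338, power saving: the programs of the acts.
-/

namespace Vale.Agent.P338Z.M

open Vale.Agent.P338.R2.H898 hiding val
open Prog
open Vale.Agent.P338.R2.H968
open Vale.Agent.P338.R2.H784
open Vale.Agent.P338.R2.H968.CallEnv (mem0)
open Vale.Agent.P338.R3.H968 hiding rd
open Vale.Agent.P338.R2.H778 (bits)
open Vale.Agent.P338.R3.H898 (Act Ex1 MD repD Rest)
open Vale.Agent.P338.R3.H525
open Vale.Agent.P338.R3.H784 (GR sto' up0 run_up0 opP run_opP wt)
open Vale.Agent.P338.D.CM (ioZ Ops Sem)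
open Vale.Agent.Lib.PolyTime (Word)
open Function (update)

section gen

variable {M F α : Type} [DecidableEq F] {d : α}

/-- One bit. -/
def xorBit (bt : Bool → α) (ub : α → Bool) (t A : F) : Prog M F α :=
  .seq (act t .left) (.seq (act A .left)
    (.seq (.prim fun m x => (m, some (t, .write (bt (rd ub x t ^^ rd ub x A))))) (act A .trunc)))

theorem run_xorBit {bt : Bool → α} {ub : α → Bool} (hb : ∀ b, ub (bt b) = b) {t A : F}
    (h1 : t ≠ A) {p q : Bool} {l r u : List α} {m : M} {z : F → Zip α}
    (ht : z t = ⟨bt p :: l, r⟩) (hA : z A = ⟨bt q :: u, []⟩) :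
    Run d (xorBit bt ub t A) ⟨m, z⟩ 4
      ⟨m, update (update z t ⟨l, bt (p ^^ q) :: r⟩) A ⟨u, []⟩⟩ := by
  have e1 := run_act' (d := d) t (.left : Op α) m z
  rw [ht, app_left_cons] at e1
  have e2 := run_act' (d := d) A (.left : Op α) m (update z t ⟨l, bt p :: r⟩)
  rw [Function.update_of_ne h1.symm, hA, app_left_cons] at e2
  have e3 : Run d (.prim fun m x => (m, some (t, .write
      (bt (rd ub x t ^^ rd ub x A)))) : Prog M F α)
      ⟨m, update (update z t ⟨l, bt p :: r⟩) A ⟨u, [bt q]⟩⟩ 1
      ⟨m, update (update z t ⟨l, bt (p ^^ q) :: r⟩) A ⟨u, [bt q]⟩⟩ := by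
    apply Run.prim'
    simp only [appAct, Store.reads, rd, Function.update_self, Function.update_of_ne h1,
      peek_cons, Option.map_some, Option.getD_some, hb, app_write_cons]
    rw [upd3 h1]
  have e5 := run_act' (d := d) A (.trunc : Op α) m
    (update (update z t ⟨l, bt (p ^^ q) :: r⟩) A ⟨u, [bt q]⟩)
  rw [Function.update_self, app_trunc, Function.update_idem] at e5
  exact (Run.seq e1 (Run.seq e2 (Run.seq e3 e5))).mono (by omega)

/-- A block. -/
def xorN (bt : Bool → α) (ub : α → Bool) (t A r : F) : Prog M F α := forR r (xorBit bt ub t A)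

theorem run_xorN {bt : Bool → α} {ub : α → Bool} (hb : ∀ b, ub (bt b) = b) {t A r : F}
    (h1 : t ≠ A) (h4 : t ≠ r) (h5 : A ≠ r) {xs ys : List Bool} {R l w u : List α} {m : M}
    {z : F → Zip α} (hx : xs.length = R.length) (hy : ys.length = R.length)
    (ht : z t = ⟨xs.map bt ++ l, w⟩) (hA : z A = ⟨ys.map bt ++ u, []⟩) (hr : z r = ⟨[], R⟩) :
    Run d (xorN bt ub t A r) ⟨m, z⟩ (R.length * 6 + 2)
      ⟨m, update (update z t ⟨l, ((List.zipWith xor xs ys).map bt).reverse ++ w⟩) A ⟨u, []⟩⟩ := by
  set Z : ℕ → F → Zip α := fun i => update (update z t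
    ⟨(xs.drop i).map bt ++ l, ((List.zipWith xor (xs.take i) (ys.take i)).map bt).reverse ++ w⟩) A
    ⟨(ys.drop i).map bt ++ u, []⟩ with hZ
  have e2 := run_forR (d := d) (r := r) (p := xorBit bt ub t A) (R := R) (m := m) Z 4
    (fun i => by
      rw [hZ]
      simp only [Function.update_of_ne h5.symm, Function.update_of_ne h4.symm, hr])
    (fun i hi => by
      have hi1 : i < xs.length := by omega
      have hi2 : i < ys.length := by omega
      have k1 := run_xorBit (d := d) hb h1 (p := xs[i]) (q := ys[i])
        (l := (xs.drop (i + 1)).map bt ++ l)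
        (r := ((List.zipWith xor (xs.take i) (ys.take i)).map bt).reverse ++ w)
        (u := (ys.drop (i + 1)).map bt ++ u) (m := m) (z := update (Z i) r (zipAt R i))
        (by
          rw [Function.update_of_ne h4, hZ]
          simp only [Function.update_of_ne h1, Function.update_self]
          rw [List.drop_eq_getElem_cons hi1]
          rfl)
        (by
          rw [Function.update_of_ne h5, hZ]
          simp only [Function.update_self]
          rw [List.drop_eq_getElem_cons hi2]
          rfl)
      have k2 : List.zipWith xor (xs.take (i + 1)) (ys.take (i + 1)) =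
          List.zipWith xor (xs.take i) (ys.take i) ++ [xs[i] ^^ ys[i]] := by
        rw [List.take_succ_eq_append_getElem hi1, List.take_succ_eq_append_getElem hi2,
          List.zipWith_append (by rw [List.length_take, List.length_take]; omega)]
        rfl
      refine Run.to k1 le_rfl (Store.ext rfl ?_)
      rw [hZ]
      simp only [k2, List.map_append, List.reverse_append, List.map_cons, List.map_nil,
        List.reverse_cons, List.reverse_nil, List.nil_append, List.cons_append]
      funext k
      simp only [Function.update_apply]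
      split_ifs <;> simp_all)
  have q1 : Z 0 = z := by
    rw [hZ]
    simp only [List.drop_zero, List.take_zero, List.zipWith_nil_left, List.map_nil,
      List.reverse_nil, List.nil_append]
    rw [upd_self z t _ ht, upd_self z A _ hA]
  have q2 : Z R.length =
      update (update z t ⟨l, ((List.zipWith xor xs ys).map bt).reverse ++ w⟩) A ⟨u, []⟩ := by
    rw [hZ]
    simp only
    rw [← hx, List.drop_length, List.take_length, hx, ← hy, List.drop_length, List.take_length]
    simp only [List.map_nil, List.nil_append]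
  rw [q1, q2] at e2
  exact e2

end gen

theorem bits_xor (b m n : ℕ) : bits b (m ^^^ n) = List.zipWith xor (bits b m) (bits b n) := by
  induction b generalizing m n with
  | zero => rfl
  | succ b ih =>
    rw [bits, bits, bits, List.zipWith_append (by simp), Nat.xor_div_two, ih]
    have e := Nat.testBit_xor m n 0
    simp only [Nat.testBit_zero] at e
    rw [e]
    rfl

theorem wds_xor (P : CPar) (n : ℕ) (x y : Cell) :
    wds P.b n (cXor P x y) = List.zipWith xor (wds P.b n x) (wds P.b n y) := by
  induction n with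
  | zero => rfl
  | succ n ih =>
    rw [wds_succ, wds_succ, wds_succ, List.zipWith_append (by simp), ih, cXor, wz_nat, bits_xor]
    rfl

theorem cellB_ceq {P : CPar} {x y : Cell} (h : CEq P x y) : cellB P x = cellB P y := by
  have k : ∀ n ≤ P.nw, wds P.b n x = wds P.b n y := by
    intro n
    induction n with
    | zero => exact fun _ => rfl
    | succ n ih =>
      intro hn
      rw [wds_succ, wds_succ, ih (by omega), wz_congr (h n (by omega))]
  exact k _ le_rfl

theorem flatMap_ceq {P : CPar} {l l' : List Cell} (h : List.Forall₂ (CEq P) l l')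
    (f : List Bool → List Bool) :
    (l.flatMap fun c => f (cellB P c)) = l'.flatMap fun c => f (cellB P c) := by
  induction h with
  | nil => rfl
  | cons h _ ih => rw [List.flatMap_cons, List.flatMap_cons, ih, cellB_ceq h]

theorem ft_deq {A : MTM} {P : CPar} {D D' : DS} (h : DEq P D D') :
    (ft P D : FT A → Zip (Ac A)) = ft P D' := by
  have h1 := flatMap_ceq h.xl List.reverse
  have h2 : D.X.r.flatMap (cellB P) = D'.X.r.flatMap (cellB P) := flatMap_ceq h.xr id
  have h3 := flatMap_ceq h.A List.reverse
  have h4 := flatMap_ceq h.B List.reverse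
  funext f
  rcases f with f | f
  · cases f <;> simp only [ft, Sum.elim_inl, fc, zc, sc, h1, h2, h3, h4, h.Y, h.ix, h.iy, h.jx,
      h.jy, h.out, h.acc, h.cst, h.sh]
  · rfl

section cell

variable {A : MTM} [DecidableEq A.Tape] {P : CPar}

/-- Sum modulo two of the top of `B` and the cell to the left of the head. -/
def pXorL (A : MTM) [DecidableEq A.Tape] : PC A := xorN bc Sy.unbit fX (fS true) (fR .ell)

theorem run_pXorL {D : DS} {c y : Cell} {l r S : List Cell} (h : D.X = ⟨c :: l, r⟩)
    (hs : D.B = y :: S) :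
    Run (dc A) (pXorL A) (stc P D) (P.ell * 6 + 2)
      (stc P (setS { D with X := ⟨l, cXor P c y :: r⟩ } true S)) := by
  have h1 := run_xorN (d := dc A) (bt := bc) (ub := Sy.unbit) ub_bc
    (fX_ne_fS (A := A) true) (fX_ne_fR .ell) (fS_ne_fR true .ell)
    (xs := (cellB P c).reverse) (ys := (cellB P y).reverse)
    (R := List.replicate (rv P .ell) .u)
    (l := (l.flatMap fun c => (cellB P c).reverse).map bc)
    (w := (r.flatMap (cellB P)).map bc)
    (u := (S.flatMap fun c => (cellB P c).reverse).map bc) (m := mem0 A) (z := ft P D)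
    (by simp [rv]) (by simp [rv])
    (by rw [ft_fX, h, zc_left]) (by rw [ft_fS, stk_true, hs, sc_cons]) (ft_fR D .ell)
  have e : List.zipWith xor (cellB P c).reverse (cellB P y).reverse =
      (cellB P (cXor P c y)).reverse := by
    rw [← List.reverse_zipWith (by simp), cellB, cellB, cellB, wds_xor]
  rw [e, List.map_reverse, List.reverse_reverse, List.length_replicate] at h1
  unfold stc
  rw [ft_setS, ft_setX D ⟨l, cXor P c y :: r⟩, zc_right]
  exact h1

/-- The program of the new act. -/
def pNew (A : MTM) [DecidableEq A.Tape] : PC A := .seq (pR A) (.seq (pXorL A) (pR A))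

theorem run_xorR {D : DS} {c y : Cell} {l r S : List Cell} (h : D.X = ⟨l, c :: r⟩)
    (hs : D.B = y :: S) : Run (dc A) (pNew A) (stc P D) (40 * (P.ell + 1))
      (stc P { D with X := ⟨cXor P c y :: l, r⟩, B := S }) := by
  have h1 := run_pR (A := A) (P := P) h
  have h2 := run_pXorL (A := A) (P := P) (D := { D with X := ⟨c :: l, r⟩ }) (c := c) (y := y)
    (l := l) (r := r) (S := S) rfl hs
  have h3 := run_pR (A := A) (P := P)
    (D := setS { D with X := ⟨l, cXor P c y :: r⟩ } true S) (c := cXor P c y) (l := l) (r := r) rfl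
  exact Run.to (Run.seq h1 (Run.seq h2 h3)) (by omega) rfl

end cell

/-- The operations of the cell machine: `wt P o` is the weight of the opcode `o`. -/
def Mo (wt : CPar → ℕ → ℕ) : Sem Bool (Fin 17) MD := fun o r x t x' =>
  x.1.Ok ∧ x'.1 = x.1 ∧ (∃ D, DEq x.1 x.2 D ∧ Fx1 x.1 ((o : ℕ), r false, r true) D x'.2) ∧
    t = wt x.1 o

theorem fx1_lt {P : CPar} {a : Act} {D D' : DS} (h : Fx1 P a D D') : a.1 < 17 := by
  cases h with
  | old h => exact (Vale.Agent.P338.R3.H898.Ex1.lt h).trans (by norm_num)
  | _ => norm_num [Act.c]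

/-- **The operations of the cell machine.** -/
theorem ops {A : MTM} (hA : Multiplies A) :
    Ops (dc A) bc (mem0 A) (repD (A := A)) (Mo (wt A)) 1500 := by
  classical
  intro o
  let _ := Classical.decEq A.Tape
  refine ⟨inferInstance, if (o : ℕ) < 16 then opP A (o : ℕ) else up0 (pNew A),
    fun r x t x' hx => ?_⟩
  obtain ⟨hP, h1, ⟨D1, h2, h3⟩, h4⟩ := hx
  obtain ⟨P, D⟩ := x
  obtain ⟨P', D'⟩ := x'
  simp only at h1 h2 h3 h4 hP
  subst h1 h4
  have e : ioZ bc (repD (A := A)) (P', D) r = ioZ bc (repD (A := A)) (P', D1) r := by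
    unfold ioZ repD
    simp only [ft_deq (A := A) h2]
  rw [e]
  generalize (o : ℕ) = n at h3 ⊢
  generalize ha : ((n, r false, r true) : Act) = a at h3
  cases h3 with
  | old h =>
    subst ha
    rw [if_pos (Vale.Agent.P338.R3.H898.Ex1.lt h)]
    exact run_opP hA hP h
  | xorR _ c y l s B h h' =>
    obtain rfl : n = 16 := congrArg Prod.fst ha
    rw [if_neg (by omega)]
    refine (run_up0 r (run_xorR h h')).mono ?_
    rw [wt, if_neg (by omega), if_neg (by omega)]
    omega

end Vale.Agent.P338Z.M
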