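import Vale.Agent.P338.R3.H898.Act
import Vale.Agent.P338.R3.H313.StepList

/-!
P338, power saving: sums of systems of passes; recursive schedules.
-/

namespace Vale.Agent.P338Z

open Vale.Agent.Lib.PolyTime
open Vale.Agent.P338.R3.H898
open Vale.Agent.P338.R3.H313.Ctl (reps rep stepActs stepIters wt)

/-! ### two systems of passes -/

section sum

variable {S C C' : Type}

/-- Codes of the first or of the second kind. -/
abbrev Sm (C C' : Type) : Type := Option C × Option C'

/-- First kind. -/
def Sm.l (c : C) : Sm C C' := (some c, none)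

/-- Second kind. -/
def Sm.r (c : C') : Sm C C' := (none, some c)

/-- Definition by cases. -/
def Sm.el {β : Type} (z : β) (f : C → β) (g : C' → β) (c : Sm C C') : β :=
  match c.1 with
  | none => (match c.2 with
    | none => z
    | some y => g y)
  | some x => f x

variable (len : S × C → ℕ) (len' : S × C' → ℕ) (ev : S × C × ℕ → List (ℕ × Act))
  (ev' : S × C' × ℕ → List (ℕ × Act))

/-- Number of places. -/
def sLen (x : S × Sm C C') : ℕ := x.2.el 0 (fun c => len (x.1, c)) fun c => len' (x.1, c)

/-- Instructions. -/
def sEv (x : S × Sm C C' × ℕ) : List (ℕ × Act) :=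
  x.2.1.el [] (fun c => ev (x.1, c, x.2.2)) fun c => ev' (x.1, c, x.2.2)

theorem acts_l (p : S) (l : List C) :
    (l.map Sm.l).flatMap (stepActs (sLen len len') (sEv ev ev') p) =
      l.flatMap (stepActs len ev p) := by
  rw [List.flatMap_map]
  rfl

theorem acts_r (p : S) (l : List C') :
    (l.map Sm.r).flatMap (stepActs (sLen len len') (sEv ev ev') p) =
      l.flatMap (stepActs len' ev' p) := by
  rw [List.flatMap_map]
  rfl

theorem iters_l (p : S) (l : List C) :
    ((l.map Sm.l).map (stepIters (sLen len len') (sEv ev ev') p)).sum =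
      (l.map (stepIters len ev p)).sum := by
  rw [List.map_map]
  rfl

theorem iters_r (p : S) (l : List C') :
    ((l.map Sm.r).map (stepIters (sLen len len') (sEv ev ev') p)).sum =
      (l.map (stepIters len' ev' p)).sum := by
  rw [List.map_map]
  rfl

variable {len len' ev ev'} [Enc S] [Enc C] [Enc C'] {A : Set Word} {α β : Type} [Enc α] [Enc β]

theorem pt_el {c : α → Sm C C'} {z : α → β} {f : α → C → β} {g : α → C' → β} (hc : PT A c)
    (hz : PT A z) (hf : PT A fun q : α × C => f q.1 q.2) (hg : PT A fun q : α × C' => g q.1 q.2) :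
    PT A fun a => (c a).el (z a) (f a) (g a) := by
  refine (PT.optCase hc.fst (PT.optCase hc.snd hz hg) hf).congr fun a => ?_
  rcases c a with ⟨_ | x, _ | y⟩ <;> rfl

theorem pt_sLen (h : PT A len) (h' : PT A len') : PT A (sLen len len') :=
  pt_el (f := fun x c => len (x.1, c)) (g := fun x c => len' (x.1, c)) PT.snd' (PT.const 0)
    (h.comp (PT.id.fst.fst.pair PT.snd')) (h'.comp (PT.id.fst.fst.pair PT.snd'))

theorem pt_sEv (h : PT A ev) (h' : PT A ev') : PT A (sEv ev ev') :=
  pt_el (f := fun x c => ev (x.1, c, x.2.2)) (g := fun x c => ev' (x.1, c, x.2.2)) PT.id.snd.fst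
    (PT.const []) (h.comp (PT.id.fst.fst.pair (PT.snd'.pair PT.id.fst.snd.snd)))
    (h'.comp (PT.id.fst.fst.pair (PT.snd'.pair PT.id.fst.snd.snd)))

theorem pt_mapl {l : α → List C} (h : PT A l) : PT A fun a => (l a).map (Sm.l (C' := C')) :=
  PT.map (f := fun _ c => Sm.l c) h ((PT.some PT.snd').pair (PT.const none))

theorem pt_mapr {l : α → List C'} (h : PT A l) : PT A fun a => (l a).map (Sm.r (C := C)) :=
  PT.map (f := fun _ c => Sm.r c) h ((PT.const none).pair (PT.some PT.snd'))

end sum

/-! ### recursive schedules -/

section recursion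

variable {C X : Type}

/-- The codes of an item: its own codes, then the call. -/
def itm (f : X → List C) (it : List C × Option X) : List C :=
  it.1 ++ match it.2 with
    | none => []
    | some x => f x

/-- A recursive schedule of depth `j`. -/
def recS (leaf : X → List C) (ex : X → List (List C × Option X)) : ℕ → X → List C
  | 0, x => leaf x
  | j + 1, x => (ex x).flatMap (itm (recS leaf ex j))

/-- One expansion. -/
def exI (ex : X → List (List C × Option X)) (it : List C × Option X) :
    List (List C × Option X) :=
  match it.2 with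
  | none => [it]
  | some x => (it.1, none) :: ex x

theorem recS_iter (leaf : X → List C) (ex : X → List (List C × Option X)) (j : ℕ) :
    ∀ l : List (List C × Option X), ((fun l => List.flatMap (exI ex) l)^[j] l).flatMap (itm leaf) =
      l.flatMap (itm (recS leaf ex j)) := by
  induction j with
  | zero => intro l; rfl
  | succ j ih =>
    intro l
    rw [Function.iterate_succ_apply, ih, List.flatMap_assoc]
    refine List.flatMap_congr fun it _ => ?_
    rcases it with ⟨a, _ | x⟩ <;> simp [exI, itm, recS]

variable [Enc C] [Enc X] {α : Type} [Enc α] {A : Set Word}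

/-- **Recursive schedules.**  `I a` is an invariant of the arguments of the calls. -/
theorem pt_recS {leaf : X → List C} {ex : X → List (List C × Option X)} (hl : PT A leaf)
    (he : PT A ex) {k : α → ℕ} {x0 : α → X} (hk : PT A k) (hx : PT A x0) {B : ℕ}
    (hB : PBd fun a => (B + 2) ^ k a) {b : α → ℕ} (hb : PBd b) (I : α → X → Prop)
    (h0 : ∀ a, I a (x0 a)) (h1 : ∀ a x, I a x → esize x ≤ b a ∧ (ex x).length ≤ B ∧
      ∀ it ∈ ex x, ∀ x', it.2 = some x' → I a x') :
    PT A fun a => recS leaf ex (k a) (x0 a) := by
  obtain ⟨c, hc⟩ := he.pbd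
  have hkb : PBd k := hB.mono fun a =>
    (Nat.lt_two_pow_self (n := k a)).le.trans (Nat.pow_le_pow_left (by omega) _)
  have hs : PT A fun l : List (List C × Option X) => List.flatMap (exI ex) l := by
    refine PT.flatMap (f := fun _ it => exI ex it) PT.id ?_
    refine (PT.optCase (o := fun q : List (List C × Option X) × List C × Option X => q.2.2)
      (g := fun q x => (q.2.1, none) :: ex x) PT.id.snd.snd (PT.cons PT.snd' (PT.const []))
      (PT.cons (PT.id.fst.snd.fst.pair (PT.const none)) (he.comp PT.snd'))).congr fun q => ?_
    rcases q with ⟨l, a, _ | x⟩ <;> rfl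
  have hbb : PBd fun a => (b a + 2) ^ c + b a + 2 :=
    ((((hb.add (PBd.const 2)).pow c).add hb).add (PBd.const 2))
  have key : ∀ a j, ((fun l => List.flatMap (exI ex) l)^[j] [(([] : List C), some (x0 a))]).length ≤
      (B + 2) ^ j ∧ ∀ it ∈ (fun l => List.flatMap (exI ex) l)^[j] [(([] : List C), some (x0 a))],
        esize it ≤ (b a + 2) ^ c + b a + 2 ∧ ∀ x', it.2 = some x' → I a x' := by
    intro a j
    induction j with
    | zero =>
      refine ⟨le_rfl, fun it hit => ?_⟩
      obtain rfl := List.mem_singleton.1 hit
      have := (h1 a _ (h0 a)).1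
      refine ⟨?_, fun x' e => Option.some.inj e ▸ h0 a⟩
      have e : esize ((([] : List C), some (x0 a))) = esize (x0 a) + 2 := by
        rw [esize_pair, esize_list_nil]
        simp [esize, enc_some]
      omega
    | succ j ih =>
      rw [Function.iterate_succ_apply']
      generalize (fun l => List.flatMap (exI ex) l)^[j] [(([] : List C), some (x0 a))] = l at ih ⊢
      constructor
      · have h2 := List.sum_le_card_nsmul (l.map fun it => (exI ex it).length) (B + 2) (by
          intro n hn
          obtain ⟨it, hit, rfl⟩ := List.mem_map.1 hn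
          rcases it with ⟨u, _ | x⟩
          · simp [exI]
          · have := (h1 a x ((ih.2 _ hit).2 x rfl)).2.1
            simp only [exI, List.length_cons]
            omega)
        rw [List.length_flatMap, pow_succ]
        rw [List.length_map, smul_eq_mul] at h2
        exact h2.trans (Nat.mul_le_mul_right _ ih.1)
      · intro it hit
        obtain ⟨it0, h2, h3⟩ := List.mem_flatMap.1 hit
        rcases it0 with ⟨u, _ | x⟩
        · obtain rfl := List.mem_singleton.1 h3
          exact ih.2 _ h2
        · have h4 := ih.2 _ h2
          have h5 := h1 a x (h4.2 x rfl)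
          rcases List.mem_cons.1 h3 with rfl | h3
          · refine ⟨le_trans ?_ h4.1, fun x' e => by cases e⟩
            rw [esize_pair, esize_pair]
            simp [esize, enc_none]
          · refine ⟨?_, h5.2.2 it h3⟩
            have h6 := (esize_le_of_mem h3).trans ((hc x).trans (pb_mono c h5.1))
            unfold pb at h6
            omega
  have h2 := PT.iterate hk hkb (PT.cons ((PT.const ([] : List C)).pair (PT.some hx)) (PT.const []))
    hs (hB.mul (((PBd.const 2).mul hbb).add (PBd.const 1))) fun a j hj =>
      (esize_list_le fun it hit => ((key a j).2 it hit).1).trans (Nat.mul_le_mul_right _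
        ((key a j).1.trans (Nat.pow_le_pow_right (by omega) hj)))
  have h3 : PT A fun q : α × List C × Option X => itm leaf q.2 := by
    refine (PT.append PT.id.snd.fst (PT.optCase (o := fun q : α × List C × Option X => q.2.2)
      (g := fun _ x => leaf x) PT.id.snd.snd (PT.const []) (hl.comp PT.snd'))).congr fun q => ?_
    rcases q with ⟨l, a, _ | x⟩ <;> rfl
  refine (PT.flatMap (f := fun _ it => itm leaf it) h2 h3).congr fun a => ?_
  rw [recS_iter]
  simp [itm]

end recursion

end Vale.Agent.P338Z
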